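import Vale.Agent.P236Z.Dt.Top
import Vale.Agent.P236Z.Tr.Defs

/-!
# P236, detection: the Eilenberg-Mac Lane ring, values of cochains

* `exists_HFmon`: a commutative monoid `H` with `IsHF p η[H]`; `AF3.af`;
* `dvd_of_ringHom`: the first hypothesis of `det` from a ring homomorphism.
-/

open CategoryTheory MonoidalCategory Limits Pretriangulated MonObj

set_option linter.unusedSectionVars false

universe v u v' u'

namespace Vale.Agent.P236Z.Dt

open Vale.Agent.P251 Vale.Agent.P251.T Vale.Agent.P251.M Vale.Agent.P251.S Vale.Agent.P251.F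
  Vale.Agent.P251.I Vale.Agent.P251.H Vale.Agent.P251.M.EvenSpheres

variable {T : Type u} [Category.{v} T] [Preadditive T] [HasZeroObject T]
    [HasShift T ℤ] [∀ n : ℤ, (shiftFunctor T n).Additive] [Pretriangulated T] [IsTriangulated T]
    [MonoidalCategory T] [SymmetricCategory T] [TensorTriangulated T] [MonoidalClosed T]
    [HasCoproducts.{0} T] [HasProducts.{0} T] [StableCat T]

theorem AF3.af {H : T} [MonObj H] {X Y : T} {f : X ⟶ Y} (h : AF3 H f) : Tr.AF η[H] 3 f := by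
  obtain ⟨X₁, X₂, f₁, f₂, f₃, rfl, h₁, h₂, h₃⟩ := h
  have key : ∀ {A B : T} {g : A ⟶ B}, H ◁ g = 0 → Tr.Null η[H] g := fun hg => by
    rw [Tr.Null, Tr.hur_naturality, hg, comp_zero]
  exact Tr.AF.three (key h₁) (key h₂) (key h₃)

/-- The Eilenberg-Mac Lane object of `ℤ / p` as a commutative monoid. -/
theorem exists_HFmon [LocallySmall.{0} T] (F : SpaceFunctor T) {p : ℕ} (hp : p ≠ 0) :
    ∃ (H : T) (_ : MonObj H) (_ : IsCommMonObj H), Tr.IsHF p η[H] := by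
  obtain ⟨Z, e, hc, hpos'⟩ := X.exists_HZ (T := T)
  obtain ⟨J, a, b, D, hJ⟩ := hc
  have hJ' : Conn 2 J := hJ.conn (unit_conn F) (fun Y k f => StableCat.compact k Y f)
  have hpos : ∀ k : ℤ, k ≠ 0 → ∀ g : (𝟙_ T)⟦k⟧ ⟶ Z, g = 0 := by
    intro k hk g
    rcases lt_or_gt_of_ne hk with h | h
    · exact conn_ring F D hJ' k h g
    · exact hpos' k (by omega) g
  have hint : ∀ f : 𝟙_ T ⟶ Z, ∃ m : ℤ, f = m • e := exists_int_ring F D hJ'
  have hinj : ∀ m : ℤ, m • e = 0 → m = 0 := eq_zero_of_zsmul_unit F D hJ'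
  obtain ⟨H, r, d, E⟩ := exists_cone ((p : ℤ) • 𝟙 Z)
  let ε : (𝟙_ T)⟦(0 : ℤ)⟧ ≅ 𝟙_ T := (shiftFunctorZero T ℤ).app (𝟙_ T)
  have hd : ∀ (k : ℤ) (g : (𝟙_ T)⟦k⟧ ⟶ H), ∃ g', g' ≫ r = g := fun k g => E.lift₃ g (by
    let c : (𝟙_ T)⟦k⟧ ≅ ((𝟙_ T)⟦k - 1⟧)⟦(1 : ℤ)⟧ :=
      (shiftFunctorAdd' T (k - 1) 1 k (by omega)).app (𝟙_ T)
    obtain ⟨g', hg'⟩ := (shiftFunctor T (1 : ℤ)).map_surjective (c.inv ≫ g ≫ d)
    have h1 : (p : ℤ) • g' = 0 := by
      apply (shiftFunctor T (1 : ℤ)).map_injective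
      have h2 := E.zero₃₁
      rw [Functor.map_zsmul, CategoryTheory.Functor.map_id, Preadditive.comp_zsmul,
        Category.comp_id] at h2
      rw [Functor.map_zsmul, hg', ← Preadditive.comp_zsmul, ← Preadditive.comp_zsmul, h2,
        comp_zero, comp_zero, Functor.map_zero]
    have h2 : g' = 0 := by
      by_cases hk : k - 1 = 0
      · obtain rfl : k = 1 := by omega
        obtain ⟨m, hm⟩ := hint (ε.inv ≫ g')
        have h3 : ((p : ℤ) * m) • e = 0 := by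
          rw [← smul_smul, ← hm, ← Preadditive.comp_zsmul]
          exact (congrArg (ε.inv ≫ ·) h1).trans comp_zero
        obtain rfl : m = 0 := (mul_eq_zero.1 (hinj _ h3)).resolve_left (by exact_mod_cast hp)
        rw [zero_smul] at hm
        exact (cancel_epi ε.inv).1 (hm.trans comp_zero.symm)
      · exact hpos _ hk g'
    rw [← cancel_epi c.inv, ← hg', h2, Functor.map_zero, comp_zero])
  have h0 : ∀ k : ℤ, k ≠ 0 → ∀ g : (𝟙_ T)⟦k⟧ ⟶ H, g = 0 := fun k hk g => by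
    obtain ⟨g', rfl⟩ := hd k g
    rw [hpos k hk g', zero_comp]
  have hr : (p : ℤ) • r = 0 := by
    have h := E.zero₁₂
    rwa [Preadditive.zsmul_comp, Category.id_comp] at h
  have h1 : BigCell T 0 (𝟙_ T) := BigCell.of_iso ε (BigCell.sphere 0 le_rfl)
  have hZ : BigCell T 0 Z := BigCell.ext _ D h1 (hJ.mono (by norm_num))
  have hH : BigCell T 0 H := BigCell.ext _ E.rot hZ ((hZ.shift 1 1 rfl).mono (by norm_num))
  have hpH : (p : ℤ) • 𝟙 H = 0 := by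
    obtain ⟨c, hc⟩ := E.desc₃ ((p : ℤ) • 𝟙 H)
      (by rw [Preadditive.comp_zsmul, Category.comp_id, hr])
    rw [← hc, X.eq_zero_of_bigCell h0 (hZ.shift 1 1 rfl) c, comp_zero]
  have hR : ∀ W, BigCell T 0 W → X.Restr (e ≫ r) W := by
    intro W hW
    have h2 : CofIn (BigCell T 2) (e ▷ W) :=
      CofIn.whiskerRight (P := BigCell T 2) (bigCell_extClosed 2) W
        (fun X hX => hW.tensor hX 2 (by norm_num)) ⟨J, a, b, D, hJ⟩
    obtain ⟨d', E'⟩ := Tr.dist_tensR E W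
    have h3 : Function.Bijective (fun g : H ⊗ W ⟶ H => (r ▷ W) ≫ g) := by
      refine ⟨fun g g' h => ?_, fun g => E'.desc₂ g ?_⟩
      · obtain ⟨c, hc⟩ := E'.desc₃ (g - g') (by rw [Preadditive.comp_sub, sub_eq_zero]; exact h)
        rw [← sub_eq_zero, ← hc,
          X.eq_zero_of_bigCell h0 ((hZ.tensor hW 0 rfl).shift 1 1 rfl) c, comp_zero]
      · have h4 : ((p : ℤ) • 𝟙 Z) ▷ W = (p : ℤ) • (𝟙 Z ▷ W) := (tensorRight W).map_zsmul ..
        rw [h4, Preadditive.zsmul_comp, ← Preadditive.comp_zsmul, ← Category.comp_id g,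
          ← Preadditive.comp_zsmul, hpH, comp_zero, comp_zero]
    have h4 := (X.bij_of_cofIn h0 h2).comp h3
    refine ⟨fun x y hxy => h4.1 ?_, fun y => ?_⟩
    · dsimp only [Function.comp] at hxy ⊢
      rwa [comp_whiskerRight_assoc, comp_whiskerRight_assoc] at hxy
    · obtain ⟨x, hx⟩ := h4.2 y
      exact ⟨x, by dsimp only; rw [comp_whiskerRight_assoc]; exact hx⟩
  obtain ⟨i1, i2, he⟩ := X.exists_commMon (e ≫ r) (hR _ h1) (hR _ hH)
    (hR _ (hH.tensor hH 0 (by norm_num)))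
  refine ⟨H, i1, i2, h0, fun g => ?_, fun m => ⟨fun h => ?_, ?_⟩⟩
  · obtain ⟨g', hg⟩ := hd 0 (ε.hom ≫ g)
    obtain ⟨m, hm⟩ := hint (ε.inv ≫ g')
    exact ⟨m, by rw [he, ← Preadditive.zsmul_comp, ← hm, Category.assoc, hg, Iso.inv_hom_id_assoc]⟩
  · rw [he, ← Preadditive.zsmul_comp] at h
    obtain ⟨g, hg⟩ := E.lift₂ _ h
    obtain ⟨m', rfl⟩ := hint g
    rw [Preadditive.comp_zsmul, Category.comp_id, smul_smul, ← sub_eq_zero, ← sub_smul] at hg
    exact ⟨m', (sub_eq_zero.1 (hinj _ hg)).symm⟩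
  · rintro ⟨m', rfl⟩
    rw [he, mul_comm, ← smul_smul, ← Preadditive.comp_zsmul, hr, comp_zero, smul_zero]

/-- The first hypothesis of `det` from a ring homomorphism on the homotopy of `N`. -/
theorem dvd_of_ringHom (D : MUData T) {N : T} [MonObj N] [IsCommMonObj N] (a b : D.R ⟶ N)
    [IsMonHom a] [IsMonHom b] {B : Type} [CommRing B] (m : Ideal B) [m.IsPrime]
    (Λ : HRing (stdEven T) N →+* B) {t1 : Cob Laz 1}
    (hv : ∀ k < 3, Λ (HRing.map (Am.lift ![a, b]) (D.ev 1 (MvPolynomial.C (Laz.v 3 k)))) ∈ m)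
    (ht : Λ (HRing.map (Am.lift ![a, b]) (D.ev 1 t1)) ∉ m) {w : ℤ} (h : Cob.wt Laz 1 w) (c : ℤ)
    (n : ℕ) (hI : h.1 - c * t1 ^ n ∈ Det.II 1)
    (hm : Λ (HRing.of (stdEven T) N w (e2 D h a b)) ∈ m) : (3 : ℤ) ∣ c := by
  let ψ : Cob Laz 1 →+* B := (Λ.comp (HRing.map (Am.lift ![a, b]))).comp (D.ev 1)
  have h1 : Det.II 1 ≤ m.comap ψ := by
    change IC 3 3 1 ≤ _
    rw [CobCompl.IC_eq_span, Ideal.span_le]
    rintro _ ⟨k, hk, rfl⟩
    exact hv k hk
  have h2 : ψ h.1 ∈ m := by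
    rwa [e2, ← HRing.map_of, D.of_evw] at hm
  have h3 : (c : B) * ψ t1 ^ n ∈ m := by
    have h4 := sub_mem h2 (h1 hI)
    rwa [← map_sub, sub_sub_cancel, map_mul, map_intCast, map_pow] at h4
  have h4 : (c : B) ∈ m := (Ideal.IsPrime.mem_or_mem ‹_› h3).resolve_right
    fun h5 => ht (Ideal.IsPrime.mem_of_pow_mem ‹_› n h5)
  have h5 : ((3 : ℤ) : B) ∈ m := by
    have h6 : Laz.v 3 0 = ((3 : ℕ) : Laz) := vv_zero 3 _
    have h7 : ψ (MvPolynomial.C (Laz.v 3 0)) ∈ m := hv 0 (by norm_num)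
    rwa [h6, map_natCast, map_natCast, ← Int.cast_natCast] at h7
  by_contra h6
  obtain ⟨x, y, hxy⟩ := (Int.prime_three.irreducible.coprime_iff_not_dvd.2 h6 : IsCoprime 3 c)
  refine Ideal.IsPrime.ne_top ‹_› ((Ideal.eq_top_iff_one m).2 ?_)
  rw [← Int.cast_one, ← hxy, Int.cast_add, Int.cast_mul, Int.cast_mul]
  exact add_mem (m.mul_mem_left _ h5) (m.mul_mem_left _ h4)

end Vale.Agent.P236Z.Dt
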