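import Vale.Agent.P251.S.MUCobar
import Vale.Agent.P251.S.CobarE1
import Vale.Agent.P251.H.Dist

/-!
# P236, detection: Moore coefficients

The cobar complex of `MU` with coefficients in `M = S / p ^ b` (`red_surj`, `red_ker`, `red_odd`)
and the lift of a map `S^{2w} ⟶ S`, `w` not divisible by `p - 1`, to the second stage of the tower
of `M` (`exists_lift`).
-/

open CategoryTheory MonoidalCategory Limits Pretriangulated MonObj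

set_option linter.unusedSectionVars false

universe v u

namespace Vale.Agent.P236Z.Dt

open Vale.Agent.P251 Vale.Agent.P251.T Vale.Agent.P251.M Vale.Agent.P251.S Vale.Agent.P251.F
  Vale.Agent.P251.I Vale.Agent.P251.H

theorem tf_pow {A : Type*} [AddCommGroup A] {p : ℤ} (h : ∀ a : A, p • a = 0 → a = 0) (b : ℕ)
    (a : A) (ha : p ^ b • a = 0) : a = 0 := by
  induction b generalizing a with
  | zero => simpa using ha
  | succ b ih => exact h a (ih _ (by rw [smul_smul, ← pow_succ, ha]))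

/-- An invariant modulo `p` of a weight not divisible by `p - 1` vanishes modulo `p`. -/
theorem inv_modP (p : ℕ) [Fact p.Prime] (hp : p ≠ 2) {w : ℤ} (hw : ¬ ((p : ℤ) - 1) ∣ w)
    {z : Cob Laz 0} (hz : Cob.IsWt w z) {y : Cob Laz 1} (hd : Cob.d 0 z = (p : ℤ) • y) :
    ∃ u : Cob Laz 0, Cob.IsWt w u ∧ z = (p : ℤ) • u := by
  have hπ := isLawHom_mkLP p
  have hp0 : (p : LP p) = 0 := by
    rw [← map_natCast (Ideal.Quotient.mk (Ideal.span {(p : Laz)}))]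
    exact Ideal.Quotient.eq_zero_iff_mem.2 (Ideal.mem_span_singleton_self _)
  have h : ((p : ℕ) : Cob (LP p) 1) = 0 := by
    rw [← map_natCast (MvPolynomial.C : LP p →+* Cob (LP p) 1), hp0, map_zero]
  have h1 : Cob.d 0 (Cob.mapRing (Ideal.Quotient.mk (Ideal.span {(p : Laz)})) 0 z) = 0 := by
    rw [← Cob.mapRing_d hπ, hd, map_zsmul, zsmul_eq_mul, Int.cast_natCast, h, zero_mul]
  exact exists_of_mapRing_mk_eq_zero p hz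
    ((F3_holds p hp w).1 _ (hz.mapRing hπ) h1 fun h => hw h.1)

variable {T : Type u} [Category.{v} T] [Preadditive T] [HasZeroObject T]
    [HasShift T ℤ] [∀ n : ℤ, (shiftFunctor T n).Additive] [Pretriangulated T]
    [MonoidalCategory T] [SymmetricCategory T] [TensorTriangulated T] [HasCoproducts.{0} T]

/-- `S^{2 (w + 1)} ≅ S^{2 w}⟦1⟧⟦1⟧` -/
noncomputable def eS {w w' : ℤ} (h : w + 1 = w') :
    (stdEven T).S w' ≅ (((stdEven T).S w)⟦(1 : ℤ)⟧)⟦(1 : ℤ)⟧ :=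
  (stdEven T).sphIso (Iso.refl _) w' ≪≫
    (shiftFunctorAdd' T (2 * w + 1) 1 (2 * w') (by omega)).app (𝟙_ T) ≪≫
    (shiftFunctor T (1 : ℤ)).mapIso ((shiftFunctorAdd' T (2 * w) 1 (2 * w + 1) rfl).app (𝟙_ T) ≪≫
      (shiftFunctor T (1 : ℤ)).mapIso ((stdEven T).sphIso (Iso.refl _) w).symm)

/-- `S^{2 w}⟦1⟧ ≅ S^{2 w + 1}` -/
noncomputable def eO (w : ℤ) : ((stdEven T).S w)⟦(1 : ℤ)⟧ ≅ (𝟙_ T)⟦2 * w + 1⟧ :=
  (shiftFunctor T (1 : ℤ)).mapIso ((stdEven T).sphIso (Iso.refl _) w) ≪≫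
    ((shiftFunctorAdd' T (2 * w) 1 (2 * w + 1) rfl).app (𝟙_ T)).symm

/-- the reduction `Y ⟶ Y ⊗ M` -/
def red {M : T} (i : 𝟙_ T ⟶ M) (Y : T) : Y ⟶ Y ⊗ M := (ρ_ Y).inv ≫ (Y ◁ i)

@[reassoc]
theorem red_nat {M : T} (i : 𝟙_ T ⟶ M) {X Y : T} (f : X ⟶ Y) :
    f ≫ red i Y = red i X ≫ (f ▷ M) := (redC i).naturality f

theorem zsmul_red' {n : ℤ} {M : T} {i : 𝟙_ T ⟶ M} {δ : M ⟶ (𝟙_ T)⟦(1 : ℤ)⟧}
    (hM : Dist (n • 𝟙 (𝟙_ T)) i δ) {X Y : T} (f : X ⟶ Y) : (n • f) ≫ red i Y = 0 :=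
  zsmul_comp_red hM f

theorem dist_red {n : ℤ} {M : T} {i : 𝟙_ T ⟶ M} {δ : M ⟶ (𝟙_ T)⟦(1 : ℤ)⟧}
    (hM : Dist (n • 𝟙 (𝟙_ T)) i δ) (Y : T) : Dist (n • 𝟙 Y) (red i Y) (bdC δ Y) :=
  redTri_distinguished hM Y

variable (D : MUData T) (U : UnitCof D.R) {p : ℕ} [Fact p.Prime] (hp : p ≠ 2)

include hp

theorem odd_red' {C : T} {i : 𝟙_ T ⟶ C} {δ : C ⟶ (𝟙_ T)⟦(1 : ℤ)⟧}
    (hC : Dist ((p : ℤ) • 𝟙 (𝟙_ T)) i δ) (s : ℕ) (w : ℤ)
    (f : ((stdEven T).S w)⟦(1 : ℤ)⟧ ⟶ U.cobar.Q (s + 1) (𝟙_ T) ⊗ C) : f = 0 := by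
  rw [← cancel_epi (eO w).inv, D.odd_red U hp hC s w ((eO w).inv ≫ f), comp_zero]

theorem tf_even (s : ℕ) (w : ℤ) (a : (stdEven T).S w ⟶ U.cobar.Q (s + 1) (𝟙_ T))
    (h : (p : ℤ) • a = 0) : a = 0 := by
  obtain ⟨C, i, δ, hC⟩ := exists_cone ((p : ℤ) • 𝟙 (𝟙_ T))
  exact torsionFree_of_red hC (odd_red' D U hp hC s w) a h

theorem tf_odd (s : ℕ) (w : ℤ)
    (g : (stdEven T).S w ⟶ (U.cobar.Q (s + 1) (𝟙_ T))⟦(1 : ℤ)⟧) (h : (p : ℤ) • g = 0) : g = 0 := by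
  obtain ⟨C, i, δ, hC⟩ := exists_cone ((p : ℤ) • 𝟙 (𝟙_ T))
  have hD : Dist _ _ _ := redTri_distinguished hC (U.cobar.Q (s + 1) (𝟙_ T))
  obtain ⟨f, rfl⟩ := hD.lift₁ g (by
    rw [Functor.map_zsmul, CategoryTheory.Functor.map_id, Preadditive.comp_zsmul,
      Category.comp_id, h])
  obtain ⟨z, rfl⟩ := D.phi_red_surj U hp hC s w f
  rw [Category.assoc, hD.zero₂₃, comp_zero]

theorem div_odd (s : ℕ) (w : ℤ) (b : ℕ)
    (g : ((stdEven T).S w)⟦(1 : ℤ)⟧ ⟶ U.cobar.Q (s + 1) (𝟙_ T)) : ∃ g', (p : ℤ) ^ b • g' = g := by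
  obtain ⟨C, i, δ, hC⟩ := exists_cone ((p : ℤ) • 𝟙 (𝟙_ T))
  induction b with
  | zero => exact ⟨g, by simp⟩
  | succ b ih =>
    obtain ⟨g', rfl⟩ := ih
    obtain ⟨g'', rfl⟩ := exists_zsmul_of_red hC g' (odd_red' D U hp hC s w _)
    exact ⟨g'', by rw [smul_smul, pow_succ]⟩

theorem surj_pow (s : ℕ) (w : ℤ) (b : ℕ) (a : (stdEven T).S w ⟶ U.cobar.Q (s + 1) (𝟙_ T)) :
    ∃ z a', a = D.phi U s w z + (p : ℤ) ^ b • a' := by
  obtain ⟨C, i, δ, hC⟩ := exists_cone ((p : ℤ) • 𝟙 (𝟙_ T))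
  induction b with
  | zero => exact ⟨0, a, by simp⟩
  | succ b ih =>
    obtain ⟨z, a', rfl⟩ := ih
    obtain ⟨z', hz'⟩ := D.phi_red_surj U hp hC s w (a' ≫ (redC i).app _)
    obtain ⟨a'', ha⟩ := exists_zsmul_of_red hC (a' - D.phi U s w z')
      (by rw [Preadditive.sub_comp, hz', sub_self])
    refine ⟨z + (p : ℤ) ^ b • z', a'', ?_⟩
    rw [map_add, map_zsmul, pow_succ, ← smul_smul, ha, smul_sub]
    abel

theorem ker_pow (s : ℕ) (w : ℤ) (b : ℕ) (z : Cob.wt Laz s w)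
    (a : (stdEven T).S w ⟶ U.cobar.Q (s + 1) (𝟙_ T)) (h : D.phi U s w z = (p : ℤ) ^ b • a) :
    ∃ y, z = (p : ℤ) ^ b • y := by
  obtain ⟨C, i, δ, hC⟩ := exists_cone ((p : ℤ) • 𝟙 (𝟙_ T))
  induction b generalizing z with
  | zero => exact ⟨z, by simp⟩
  | succ b ih =>
    obtain ⟨y, rfl⟩ := D.phi_red_ker U hp hC s w z (by
      rw [h, pow_succ', ← smul_smul, zsmul_comp_red hC])
    obtain ⟨y', rfl⟩ := ih y (by
      rw [← sub_eq_zero]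
      apply tf_even D U hp
      rw [smul_sub, ← map_zsmul, h, smul_smul, ← pow_succ', sub_self])
    exact ⟨y', by rw [smul_smul, pow_succ']⟩

/-- A cocycle of degree zero is infinitely divisible in the weights not divisible by `p - 1`. -/
theorem div_zero {w : ℤ} (hw : ¬ ((p : ℤ) - 1) ∣ w) (b : ℕ)
    (a : (stdEven T).S w ⟶ U.cobar.Q 1 (𝟙_ T)) (ha : a ≫ U.cobar.d 1 (𝟙_ T) = 0) :
    ∃ a', (p : ℤ) ^ b • a' = a := by
  induction b generalizing a with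
  | zero => exact ⟨a, by simp⟩
  | succ b ih =>
    obtain ⟨z, a', rfl⟩ := surj_pow D U hp 0 w 1 a
    obtain ⟨y, hy⟩ := ker_pow D U hp 1 w 1 (Cob.dwt Laz 0 w z) (-(a' ≫ U.cobar.d 1 (𝟙_ T))) (by
      rw [D.phi_d, smul_neg, eq_neg_iff_add_eq_zero, ← Preadditive.zsmul_comp,
        ← Preadditive.add_comp, ha])
    rw [pow_one] at hy ha
    obtain ⟨u, hu, hz⟩ := inv_modP p hp hw z.2 (y := y.1) (congrArg Subtype.val hy)
    obtain rfl : z = (p : ℤ) • (⟨u, hu⟩ : Cob.wt Laz 0 w) := Subtype.ext hz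
    rw [map_zsmul, ← smul_add] at ha
    obtain ⟨a'', h⟩ := ih (D.phi U 0 w ⟨u, hu⟩ + a') (tf_even D U hp 1 w _ (by
      rw [← Preadditive.zsmul_comp, ha]))
    exact ⟨a'', by rw [pow_succ', ← smul_smul, h, map_zsmul, pow_one, smul_add]⟩

variable {b : ℕ} {M : T} {i : 𝟙_ T ⟶ M} {δ : M ⟶ (𝟙_ T)⟦(1 : ℤ)⟧}
  (hM : Dist ((p : ℤ) ^ b • 𝟙 (𝟙_ T)) i δ)

include hM

theorem red_surj (s : ℕ) (w : ℤ) (f : (stdEven T).S w ⟶ U.cobar.Q (s + 1) (𝟙_ T) ⊗ M) :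
    ∃ z : Cob.wt Laz s w, f = D.phi U s w z ≫ red i _ := by
  obtain ⟨a, rfl⟩ : ∃ a, a ≫ red i _ = f :=
    exists_lift_of_torsionFree hM (tf_pow (tf_odd D U hp s w) b) f
  obtain ⟨z, a', rfl⟩ := surj_pow D U hp s w b a
  exact ⟨z, by rw [Preadditive.add_comp, zsmul_red' hM, add_zero]⟩

theorem red_ker (s : ℕ) (w : ℤ) (z : Cob.wt Laz s w)
    (hz : D.phi U s w z ≫ red i _ = 0) : ∃ y, z = (p : ℤ) ^ b • y := by
  obtain ⟨a, ha⟩ := exists_zsmul_of_red hM _ hz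
  exact ker_pow D U hp s w b z a ha.symm

theorem red_odd (s : ℕ) (w : ℤ)
    (f : ((stdEven T).S w)⟦(1 : ℤ)⟧ ⟶ U.cobar.Q (s + 1) (𝟙_ T) ⊗ M) : f = 0 := by
  obtain ⟨a, rfl⟩ := exists_lift_of_torsionFree hM (fun g hg => by
    obtain ⟨g', rfl⟩ := (shiftFunctor T (1 : ℤ)).map_surjective g
    rw [← Functor.map_zsmul, ← (shiftFunctor T (1 : ℤ)).map_zero] at hg
    rw [tf_pow (tf_even D U hp s w) b g' ((shiftFunctor T (1 : ℤ)).map_injective hg),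
      Functor.map_zero]) f
  obtain ⟨a', rfl⟩ := div_odd D U hp s w b a
  exact zsmul_comp_red hM a'

omit hp hM in
/-- the boundary maps of the tower with coefficients in `M` -/
noncomputable def bdM (M : T) (s : ℕ) :
    U.cobar.B (s + 1) (𝟙_ T) ⊗ M ⟶ (U.cobar.B s (𝟙_ T) ⊗ M)⟦(1 : ℤ)⟧ :=
  (U.bd s (𝟙_ T) ▷ M) ≫ ((tensorRight M).commShiftIso (1 : ℤ)).hom.app (U.cobar.B s (𝟙_ T))

omit hp hM in
theorem dist_bdM (M : T) (s : ℕ) : Dist (unitMap D.R (U.cobar.B s (𝟙_ T)) ▷ M)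
    (U.cobar.k s (𝟙_ T) ▷ M) (bdM D U M s) :=
  dist_whiskerRight M (U.towerTriangle_distinguished s (𝟙_ T))

omit hp hM in
/-- the projection from the cobar complex -/
noncomputable def qq (s : ℕ) : Am D.R (s + 1) ⟶ D.R ⊗ U.cobar.B s (𝟙_ T) :=
  (D.qAm U (s + 1)).inv ≫ U.cobar.q s (𝟙_ T)

omit hp hM in
/-- the alternating sum of the cofaces -/
noncomputable def dd (n : ℕ) : Am D.R n ⟶ Am D.R (n + 1) :=
  ∑ i : Fin (n + 1), (-1 : ℤ) ^ (i : ℕ) • Am.map D.R (Fin.succAbove i : Fin n → Fin (n + 1))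

omit hp hM in
@[reassoc]
theorem dd_qq (s : ℕ) : dd D (s + 1) ≫ qq D U (s + 1) =
    qq D U s ≫ U.cobar.k s (𝟙_ T) ≫ unitMap D.R (U.cobar.B (s + 1) (𝟙_ T)) := by
  have h := D.d_qAm U (s + 1)
  rw [← Iso.inv_comp_eq, ← Category.assoc, ← Iso.eq_comp_inv] at h
  rw [qq, qq, dd, ← Category.assoc, ← h, Category.assoc, Category.assoc, CobarData.d_q]
  rfl

omit hp hM in
theorem one_qq : η[Am D.R 1] ≫ qq D U 0 = unitMap D.R (𝟙_ T) := by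
  have h := D.d_qAm U 0
  have h1 : (D.qAm U 0).hom = 𝟙 (𝟙_ T) := by
    change (λ_ _).inv ≫ (ρ_ _).hom = _
    rw [← unitors_equal, Iso.inv_hom_id]
  rw [Fin.sum_univ_one, h1, ← Iso.eq_comp_inv] at h
  rw [qq, CobarData.q_zero]
  refine Eq.trans ?_ h.symm
  simp only [Fin.val_zero, pow_zero, one_smul, Category.id_comp]
  exact congrArg _ (Category.comp_id _)

omit hp hM in
/-- the functor `Z ↦ Hom (P, Z ⊗ M)` -/
noncomputable abbrev homM (P M : T) : T ⥤ AddCommGrpCat.{v} :=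
  tensorRight M ⋙ preadditiveCoyoneda.obj (Opposite.op P)

/-- (D2) the lift to the second stage of the tower and its cocycle. -/
theorem exists_lift {w w' : ℤ} (h : w + 1 = w') (hw : ¬ ((p : ℤ) - 1) ∣ w)
    (θ : (stdEven T).S w ⟶ 𝟙_ T) :
    ∃ (t : (stdEven T).S w' ⟶ U.cobar.B 2 (𝟙_ T) ⊗ M) (x : Cob.wt Laz 2 w')
      (y : Cob.wt Laz 3 w'), Cob.dwt Laz 2 w' x = (p : ℤ) ^ b • y ∧
      t ≫ bdM D U M 1 ≫ (bdM D U M 0)⟦(1 : ℤ)⟧' =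
        (eS h).hom ≫ ((θ ≫ red i _)⟦(1 : ℤ)⟧')⟦(1 : ℤ)⟧' ∧
      t ≫ (unitMap D.R _ ▷ M) = D.evw 2 w' x ≫ qq D U 2 ≫ red i _ := by
  obtain ⟨a, ha⟩ := div_zero D U hp hw b (θ ≫ U.cobar.d 0 (𝟙_ T))
    (by rw [Category.assoc, CobarData.d_d, comp_zero])
  obtain ⟨t₁, h₁⟩ := (dist_bdM D U M 0).lift₁ ((θ ≫ red i _)⟦(1 : ℤ)⟧') (by
    rw [← Functor.map_comp, Category.assoc, ← red_nat, ← Category.assoc]
    exact (congrArg (fun f => (f ≫ red i _)⟦(1 : ℤ)⟧') ha.symm).trans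
      (by rw [zsmul_red' hM, Functor.map_zero]))
  obtain ⟨t₂, h₂⟩ := (dist_bdM D U M 1).lift₁ (t₁⟦(1 : ℤ)⟧') (by
    obtain ⟨c, hc⟩ : ∃ c : ((stdEven T).S w)⟦(1 : ℤ)⟧ ⟶ U.cobar.Q 2 (𝟙_ T) ⊗ M,
        c ≫ (U.cobar.q 1 (𝟙_ T) ▷ M) = t₁ ≫ (unitMap D.R (U.cobar.B 1 (𝟙_ T)) ▷ M) :=
      U.cobar.q_surjective (F := homM (((stdEven T).S w)⟦(1 : ℤ)⟧) M) 1 (𝟙_ T)
        (t₁ ≫ (unitMap D.R _ ▷ M))
    rw [red_odd D U hp hM 1 w c, zero_comp] at hc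
    rw [← Functor.map_comp, ← hc]
    exact Functor.map_zero _ _ _)
  obtain ⟨c, hc, hq⟩ : ∃ c : (stdEven T).S w' ⟶ U.cobar.Q 3 (𝟙_ T) ⊗ M,
      c ≫ (U.cobar.d 3 (𝟙_ T) ▷ M) = 0 ∧ c ≫ (U.cobar.q 2 (𝟙_ T) ▷ M) =
        ((eS h).hom ≫ t₂) ≫ (unitMap D.R (U.cobar.B 2 (𝟙_ T)) ▷ M) :=
    U.cobar.exists_cocycle (F := homM ((stdEven T).S w') M) 2 (𝟙_ T)
    (((eS h).hom ≫ t₂) ≫ (unitMap D.R _ ▷ M)) (by
      change (((eS h).hom ≫ t₂) ≫ (unitMap D.R _ ▷ M)) ≫ (U.cobar.D 2 (𝟙_ T) ▷ M) = 0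
      rw [CobarData.D, comp_whiskerRight, Category.assoc, ← Category.assoc (_ ▷ M),
        (dist_bdM D U M 2).zero₁₂, zero_comp, comp_zero])
  obtain ⟨x, rfl⟩ := red_surj D U hp hM 2 w' c
  obtain ⟨y, hy⟩ := red_ker D U hp hM 3 w' (Cob.dwt Laz 2 w' x) (by
    rw [D.phi_d, Category.assoc, red_nat, ← Category.assoc]
    exact hc)
  refine ⟨(eS h).hom ≫ t₂, x, y, hy, ?_, ?_⟩
  · rw [Category.assoc, reassoc_of% h₂, ← Functor.map_comp, h₁]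
  · rw [← hq, Category.assoc, ← red_nat, D.phi_apply, qq, Category.assoc, Category.assoc]

end Vale.Agent.P236Z.Dt
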