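import Vale.Agent.P236Z.Dt.Moore
import Vale.Agent.P251.X.HQ
import Vale.Agent.P251.S.GrB
import Vale.Agent.P251.S.CobWt

/-!
# P236, detection: the Thom reduction

`AF3 H f`: `f` is a composite of three maps which vanish after tensoring with `H`.
`af3_of_mem`: a lift to the second stage of the tower of `MU` whose cocycle lies in the ideal
`(p, v_1, …)` has filtration three for `H`; `descend`: from `S / p ^ b` to the sphere.
-/

open CategoryTheory MonoidalCategory Limits Pretriangulated MonObj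

set_option linter.unusedSectionVars false

universe v u

namespace Vale.Agent.P236Z.Dt

open Vale.Agent.P251 Vale.Agent.P251.T Vale.Agent.P251.M Vale.Agent.P251.S Vale.Agent.P251.F
  Vale.Agent.P251.I Vale.Agent.P251.H Vale.Agent.P251.M.EvenSpheres

variable {T : Type u} [Category.{v} T] [Preadditive T] [HasZeroObject T]
    [HasShift T ℤ] [∀ n : ℤ, (shiftFunctor T n).Additive] [Pretriangulated T] [IsTriangulated T]
    [MonoidalCategory T] [SymmetricCategory T] [TensorTriangulated T] [MonoidalClosed T]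
    [HasCoproducts.{0} T] [HasProducts.{0} T] [StableCat T]

/-- `f` is a composite of three maps which vanish after tensoring with `H`. -/
def AF3 (H : T) {X Y : T} (f : X ⟶ Y) : Prop :=
  ∃ (X₁ X₂ : T) (f₁ : X ⟶ X₁) (f₂ : X₁ ⟶ X₂) (f₃ : X₂ ⟶ Y),
    f = f₁ ≫ f₂ ≫ f₃ ∧ H ◁ f₁ = 0 ∧ H ◁ f₂ = 0 ∧ H ◁ f₃ = 0

theorem null_shift {H X Y : T} {f : X ⟶ Y} (h : H ◁ f = 0) (k : ℤ) : H ◁ f⟦k⟧' = 0 := by
  rw [← cancel_mono (csh H k Y).hom, csh_nat, h, Functor.map_zero, comp_zero, zero_comp]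

theorem AF3.comp {H W X Y Z : T} {f : X ⟶ Y} (h : AF3 H f) (e : W ⟶ X) (e' : Y ⟶ Z) :
    AF3 H (e ≫ f ≫ e') := by
  obtain ⟨X₁, X₂, f₁, f₂, f₃, rfl, h₁, h₂, h₃⟩ := h
  refine ⟨X₁, X₂, e ≫ f₁, f₂, f₃ ≫ e', by simp only [Category.assoc], ?_, h₂, ?_⟩
  · rw [MonoidalCategory.whiskerLeft_comp, h₁, comp_zero]
  · rw [MonoidalCategory.whiskerLeft_comp, h₃, zero_comp]

theorem AF3.of_shift {H X Y : T} {f : X ⟶ Y} (h : AF3 H (f⟦(1 : ℤ)⟧')) : AF3 H f := by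
  have h' : AF3 H ((f⟦(1 : ℤ)⟧')⟦(-1 : ℤ)⟧') := by
    obtain ⟨X₁, X₂, f₁, f₂, f₃, e, h₁, h₂, h₃⟩ := h
    exact ⟨_, _, f₁⟦(-1 : ℤ)⟧', f₂⟦(-1 : ℤ)⟧', f₃⟦(-1 : ℤ)⟧', by
      rw [e, Functor.map_comp, Functor.map_comp], null_shift h₁ _, null_shift h₂ _,
      null_shift h₃ _⟩
  have h'' := h'.comp ((shiftFunctorCompIsoId T (1 : ℤ) (-1) (add_neg_cancel 1)).inv.app X)
    ((shiftFunctorCompIsoId T (1 : ℤ) (-1) (add_neg_cancel 1)).hom.app Y)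
  rw [shift_shift_neg'] at h''
  simpa using h''

section Mon

variable {H : T} [MonObj H]

theorem null_of_un {X Y : T} {f : X ⟶ Y} (h : f ≫ unitMap H Y = 0) : H ◁ f = 0 := by
  rw [← Category.comp_id (H ◁ f), ← whiskerLeft_unitMap_mulMap,
    ← MonoidalCategory.whiskerLeft_comp_assoc, h, MonoidalPreadditive.whiskerLeft_zero, zero_comp]

theorem un_whisker (Y M : T) : unitMap H Y ▷ M = unitMap H (Y ⊗ M) ≫ (α_ H Y M).inv := by
  simp [unitMap]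

theorem un_of_null {X Y M : T} {f : X ⟶ Y ⊗ M} (h : H ◁ f = 0) : f ≫ (unitMap H Y ▷ M) = 0 := by
  rw [un_whisker, unitMap_nat_assoc, h, zero_comp, comp_zero]

theorem null_of_un' {X Y M : T} {f : X ⟶ Y ⊗ M} (h : f ≫ (unitMap H Y ▷ M) = 0) : H ◁ f = 0 := by
  apply null_of_un
  rw [← cancel_mono (α_ H Y M).inv, Category.assoc, ← un_whisker, h, zero_comp]

theorem extClosed_tors (p : ℤ) : ExtClosed (fun X : T => ∃ k : ℕ, p ^ k • 𝟙 X = 0) where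
  zero X hX := ⟨0, hX.eq_of_src _ _⟩
  ext := by
    rintro X Y Z f g h D ⟨k, hk⟩ ⟨l, hl⟩
    obtain ⟨a, ha⟩ := D.lift₂ (p ^ l • 𝟙 Y) (by
      rw [Preadditive.zsmul_comp, Category.id_comp, ← Category.comp_id g,
        ← Preadditive.comp_zsmul, hl, comp_zero])
    refine ⟨k + l, ?_⟩
    rw [pow_add, ← smul_smul, ← ha, ← Category.id_comp f, ← Preadditive.comp_zsmul,
      ← Preadditive.zsmul_comp, hk, zero_comp, comp_zero]

/-- From Moore coefficients to the sphere. -/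
theorem descend {p : ℤ} (hp : p • η[H] = 0) (Y : T) : ∃ k : ℕ, ∀ b, k ≤ b → ∀ (M : T)
    (i : 𝟙_ T ⟶ M) (δ : M ⟶ (𝟙_ T)⟦(1 : ℤ)⟧), Dist (p ^ b • 𝟙 (𝟙_ T)) i δ →
      ∀ (X : T) (θ : X ⟶ Y), AF3 H (θ ≫ red i Y) → AF3 H θ := by
  have ht : ∀ Z : T, ∃ k : ℕ, p ^ k • 𝟙 (H ⊗ Z) = 0 := fun Z => ⟨1, by
    have h : (p • η[H]) ▷ (H ⊗ Z) = p • (η[H] ▷ (H ⊗ Z)) := (tensorRight _).map_zsmul ..
    rw [pow_one, ← unitMap_mulMap, ← Preadditive.zsmul_comp, unitMap, ← Preadditive.comp_zsmul,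
      ← h, hp, MonoidalPreadditive.zero_whiskerRight, comp_zero, zero_comp]⟩
  obtain ⟨K₁, j₁, d₁, D₁⟩ := exists_fibre (unitMap H Y)
  obtain ⟨K₂, j₂, d₂, D₂⟩ := exists_fibre (unitMap H K₁)
  obtain ⟨K₃, j₃, d₃, D₃⟩ := exists_fibre (unitMap H K₂)
  obtain ⟨C, c, d, DC, k, hk⟩ := CofIn.comp (extClosed_tors p) ⟨_, _, _, D₃, ht _⟩
    (CofIn.comp (extClosed_tors p) ⟨_, _, _, D₂, ht _⟩ ⟨_, _, _, D₁, ht _⟩)
  refine ⟨k, fun b hb M i δ hM X θ h => ?_⟩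
  obtain ⟨X₁, X₂, f₁, f₂, f₃, e, h₁, h₂, h₃⟩ := h
  have E₁ : Dist (j₁ ▷ M) (unitMap H Y ▷ M) _ := dist_whiskerRight M D₁
  have E₂ : Dist (j₂ ▷ M) (unitMap H K₁ ▷ M) _ := dist_whiskerRight M D₂
  have E₃ : Dist (j₃ ▷ M) (unitMap H K₂ ▷ M) _ := dist_whiskerRight M D₃
  obtain ⟨g₃, rfl⟩ := E₁.lift₂ f₃ (un_of_null h₃)
  obtain ⟨g₂, e₂⟩ := E₂.lift₂ (f₂ ≫ g₃) (un_of_null (by
    rw [MonoidalCategory.whiskerLeft_comp, h₂, zero_comp]))
  obtain ⟨g₁, e₁⟩ := E₃.lift₂ (f₁ ≫ g₂) (un_of_null (by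
    rw [MonoidalCategory.whiskerLeft_comp, h₁, zero_comp]))
  obtain ⟨a, ha⟩ := (dist_red hM C).lift₂ (θ ≫ c) (by
    rw [Category.assoc, red_nat, reassoc_of% e, ← reassoc_of% e₂, ← reassoc_of% e₁,
      ← comp_whiskerRight, ← comp_whiskerRight, ← comp_whiskerRight, ← Category.assoc j₂,
      ← Category.assoc j₃, DC.zero₁₂, MonoidalPreadditive.zero_whiskerRight, comp_zero])
  obtain ⟨l, rfl⟩ := Nat.exists_eq_add_of_le' hb
  rw [pow_add, ← smul_smul, hk, smul_zero, comp_zero] at ha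
  obtain ⟨θ', rfl⟩ := DC.lift₂ θ ha.symm
  refine ⟨K₂, K₁, θ' ≫ j₃, j₂, j₁, by simp only [Category.assoc], ?_, null_of_un D₂.zero₁₂,
    null_of_un D₁.zero₁₂⟩
  rw [MonoidalCategory.whiskerLeft_comp, null_of_un D₃.zero₁₂, comp_zero]

end Mon

variable (D : MUData T) {H : T} [MonObj H] [IsCommMonObj H]
  (h0 : ∀ k : ℤ, k ≠ 0 → ∀ g : (𝟙_ T)⟦k⟧ ⟶ H, g = 0)

omit [IsCommMonObj H] in
include h0 in
/-- The Thom map. -/
theorem exists_thom : ∃ u : D.R ⟶ H, IsMonHom u := by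
  obtain ⟨J, ρ, δ, hJ⟩ := exists_cone (η[D.R])
  have hc : CofIn (BigCell T 2) (η[D.R]) := ⟨J, ρ, δ, hJ, D.conn J ρ δ hJ⟩
  have h1 : BigCell T 0 (𝟙_ T) :=
    BigCell.of_iso ((shiftFunctorZero T ℤ).app (𝟙_ T)) (BigCell.sphere 0 le_rfl)
  have hR : BigCell T 0 D.R := BigCell.ext _ hJ h1 ((D.conn J ρ δ hJ).mono (by norm_num))
  obtain ⟨u, hu⟩ := (X.bij_of_cofIn h0 hc).2 η[H]
  replace hu : η[D.R] ≫ u = η[H] := hu
  have h2 : CofIn (BigCell T 2) (η[D.R] ▷ D.R) :=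
    CofIn.whiskerRight (P := BigCell T 2) (bigCell_extClosed 2) D.R
      (fun X hX => hR.tensor hX 2 (by norm_num)) hc
  refine ⟨u, hu, (X.bij_of_cofIn h0 h2).1 ?_⟩
  change (η[D.R] ▷ D.R) ≫ μ[D.R] ≫ u = (η[D.R] ▷ D.R) ≫ (u ⊗ₘ u) ≫ μ[H]
  rw [MonObj.one_mul_assoc, ← tensorHom_id, tensorHom_comp_tensorHom_assoc, hu,
    Category.id_comp, MonObj.one_mul_hom]

include h0 in
/-- The ideal `(p, v_1, …)` is killed by a map which is the Thom map at the vertex zero. -/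
theorem evw_thom {p : ℕ} [Fact p.Prime] (hp : (p : ℤ) • η[H] = 0) (u : D.R ⟶ H) [IsMonHom u]
    {K : T} [MonObj K] [IsCommMonObj K] (κ : H ⟶ K) [IsMonHom κ] {s : ℕ}
    (ψ : Am D.R (s + 1) ⟶ K) [IsMonHom ψ] (hψ : Am.v D.R 0 ≫ ψ = u ≫ κ) {h : ℕ} {w : ℤ}
    (x : Cob.wt Laz s w) (hx : x.1 ∈ IC p h s) : D.evw s w x ≫ ψ = 0 := by
  have h1 : IC p h s ≤ RingHom.ker ((HRing.map (E := stdEven T) ψ).comp (D.ev s)) := by
    rw [CobCompl.IC_eq_span, Ideal.span_le]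
    rintro _ ⟨k, -, rfl⟩
    rw [SetLike.mem_coe, RingHom.mem_ker]
    rcases Nat.eq_zero_or_pos k with rfl | hk
    · have h2 : Laz.v p 0 = (p : Laz) := vv_zero p _
      rw [h2, map_natCast, map_natCast, ← Int.cast_natCast, ← zsmul_one, ← of_one,
        ← map_zsmul, ← Preadditive.comp_zsmul, ← IsMonHom.one_hom κ, ← Preadditive.zsmul_comp, hp,
        zero_comp, comp_zero, map_zero]
    · have h3 : Am.map D.R (fun _ : Fin 1 => (0 : Fin (s + 1))) ≫ ψ =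
          Am.lift (fun _ : Fin 1 => u) ≫ κ :=
        Am.hom_ext fun i => by rw [Am.v_map_assoc, Am.v_lift_assoc, hψ]
      have h4 : D.evw 0 _ ⟨_, CobCompl.isWt_C_v (p := p) (s := 0) k⟩ ≫ Am.lift (fun _ : Fin 1 => u) = 0 := by
        have h5 : 1 < p ^ k := Nat.one_lt_pow hk.ne' (Fact.out : p.Prime).one_lt
        have h6 : (1 : ℤ) < (p : ℤ) ^ k := by exact_mod_cast h5
        rw [← cancel_epi ((stdEven T).sphIso (Iso.refl _) _).inv, h0 _ (by omega) (_ ≫ _),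
          comp_zero]
      rw [← GD.map_C_zero, RingHom.comp_apply, ← D.ev_map, ← D.of_evw ⟨_, CobCompl.isWt_C_v (p := p) (s := 0) k⟩,
        HRing.map_of, HRing.map_of, Category.assoc, h3, reassoc_of% h4, zero_comp]
      exact map_zero (DirectSum.of ((stdEven T).Gr K) _)
  apply MUData.of_injective
  have h2 := h1 hx
  rw [RingHom.mem_ker, RingHom.comp_apply, ← D.of_evw, HRing.map_of] at h2
  exact h2.trans (map_zero (DirectSum.of ((stdEven T).Gr K) w)).symm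

include h0 in
/-- (D3) -/
theorem af3_of_mem (U : UnitCof D.R) {p : ℕ} [Fact p.Prime] (hp : (p : ℤ) • η[H] = 0) {M : T}
    (i : 𝟙_ T ⟶ M) {h : ℕ} {w : ℤ} (t : (stdEven T).S w ⟶ U.cobar.B 2 (𝟙_ T) ⊗ M)
    (x : Cob.wt Laz 2 w) (y : Cob.wt Laz 1 w) (hx : x.1 - Cob.d 1 y.1 ∈ IC p h 2)
    (ht : t ≫ (unitMap D.R _ ▷ M) = D.evw 2 w x ≫ qq D U 2 ≫ red i _) :
    AF3 H (t ≫ bdM D U M 1 ≫ (bdM D U M 0)⟦(1 : ℤ)⟧') := by
  obtain ⟨u, hu⟩ := exists_thom D h0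
  have hun : ∀ Y, unitMap H Y = unitMap D.R Y ≫ (u ▷ Y) := fun Y => by
    rw [unitMap, unitMap, Category.assoc, ← comp_whiskerRight, IsMonHom.one_hom]
  have hbd : ∀ s, H ◁ bdM D U M s = 0 := fun s => null_of_un (by
    rw [← cancel_mono (csh H 1 _).hom, Category.assoc, unitMap_csh, zero_comp,
      ← cancel_mono ((α_ H _ M).inv⟦(1 : ℤ)⟧'), Category.assoc, ← Functor.map_comp, ← un_whisker,
      hun, comp_whiskerRight, Functor.map_comp, ← Category.assoc, (dist_bdM D U M s).zero₃₁,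
      zero_comp, zero_comp])
  let t' : (stdEven T).S w ⟶ U.cobar.B 2 (𝟙_ T) ⊗ M :=
    D.evw 1 w y ≫ qq D U 1 ≫ red i _ ≫ (U.cobar.k 1 (𝟙_ T) ▷ M)
  have h1 : t' ≫ bdM D U M 1 = 0 := by
    simp only [t', Category.assoc]
    rw [(dist_bdM D U M 1).zero₂₃, comp_zero, comp_zero, comp_zero]
  have h2 : t' ≫ (unitMap D.R _ ▷ M) =
      D.evw 2 w (Cob.dwt Laz 1 w y) ≫ qq D U 2 ≫ red i _ := by
    rw [D.evw_dwt, ← dd]
    simp only [t', Category.assoc]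
    rw [dd_qq_assoc D U 1, ← red_nat_assoc i (U.cobar.k 1 (𝟙_ T)), ← red_nat]
  refine ⟨_, _, t - t', bdM D U M 1, (bdM D U M 0)⟦(1 : ℤ)⟧', ?_, null_of_un' ?_, hbd 1,
    null_shift (hbd 0) 1⟩
  · rw [Preadditive.sub_comp, reassoc_of% h1, zero_comp, sub_zero]
  · have h3 := evw_thom D h0 hp u (inrM (𝟙_ T) H ≫ inlM _ D.R ≫ inlM _ D.R) (s := 2)
      ((((𝟙_ T) ◁ u) ▷ D.R) ▷ D.R) (by
        have h4 : Am.v D.R (0 : Fin 3) = (inrM (𝟙_ T) D.R ≫ inlM _ D.R) ≫ inlM _ D.R := rfl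
        have h5 : inrM (𝟙_ T) D.R ≫ (𝟙_ T) ◁ u = u ≫ inrM (𝟙_ T) H := by
          rw [inrM, inrM, Category.assoc, ← whisker_exchange, leftUnitor_inv_naturality_assoc]
        rw [h4, Category.assoc, Category.assoc, inlM_whiskerRight, inlM_whiskerRight_assoc,
          reassoc_of% h5])
      (x - Cob.dwt Laz 1 w y) hx
    have h4 : (D.qAm U 3).inv ≫ (u ▷ (D.R ⊗ D.R ⊗ 𝟙_ T)) = ((((𝟙_ T) ◁ u) ▷ D.R) ▷ D.R) ≫
        (ρ_ _).inv ≫ (α_ _ _ _).hom ≫ (α_ _ _ _).hom ≫ (α_ _ _ _).hom ≫ (λ_ _).hom := by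
      change ((ρ_ _).inv ≫ (α_ _ _ _).hom ≫ (α_ _ _ _).hom ≫ (α_ _ _ _).hom ≫ (λ_ _).hom) ≫ _ = _
      monoidal
    rw [hun, comp_whiskerRight, ← Category.assoc, Preadditive.sub_comp, ht, h2,
      ← Preadditive.sub_comp, ← map_sub, Category.assoc, Category.assoc, ← red_nat,
      qq, CobarData.q_two, Category.assoc]
    change _ ≫ _ ≫ (D.R ◁ _) ≫ (u ▷ _) ≫ _ = 0
    rw [whisker_exchange_assoc, reassoc_of% h4, reassoc_of% h3, zero_comp]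

end Vale.Agent.P236Z.Dt
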