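import Mathlib.CategoryTheory.Triangulated.Triangulated

/-!
# P236, detection: two filtrations of a map

`zz`: a map of filtration two for a tower `V₂ → V₁⟦1⟧`, `V₁ → V₀⟦1⟧` extends over a two step cell
structure `F → F → P`, `P → S → L`; `zz_sub`: the indeterminacy.
-/

open CategoryTheory Limits Pretriangulated

universe v u

namespace Vale.Agent.P236Z.Dt

variable {C : Type u} [Category.{v} C] [Preadditive C] [HasZeroObject C] [HasShift C ℤ]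
  [∀ n : ℤ, (shiftFunctor C n).Additive] [Pretriangulated C]

/-- two step cell structures -/
structure Cells (C : Type u) [Category.{v} C] [Preadditive C] [HasZeroObject C] [HasShift C ℤ]
    [∀ n : ℤ, (shiftFunctor C n).Additive] [Pretriangulated C] where
  /-- the free cell -/
  F : C
  /-- the unit sphere -/
  P : C
  /-- the bottom sphere -/
  S : C
  /-- the representation sphere -/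
  L : C
  /-- the generator -/
  g : F ⟶ F
  /-- the bottom cell -/
  e₀ : F ⟶ P
  /-- the top cell -/
  e₁ : P ⟶ F⟦(1 : ℤ)⟧
  /-- the collapse -/
  p : P ⟶ S
  /-- the Euler class -/
  a : S ⟶ L
  /-- the boundary -/
  b : L ⟶ P⟦(1 : ℤ)⟧
  d₁ : Triangle.mk (𝟙 F - g) e₀ e₁ ∈ distTriang C
  d₂ : Triangle.mk p a b ∈ distTriang C

variable (Z : Cells C)

theorem zz {V₀ W₀ V₁ W₁ V₂ : C} {η₀ : V₀ ⟶ W₀} {ρ₀ : W₀ ⟶ V₁} {δ₀ : V₁ ⟶ V₀⟦(1 : ℤ)⟧}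
    {η₁ : V₁ ⟶ W₁} {ρ₁ : W₁ ⟶ V₂} {δ₁ : V₂ ⟶ V₁⟦(1 : ℤ)⟧}
    (A₀ : Triangle.mk η₀ ρ₀ δ₀ ∈ distTriang C) (A₁ : Triangle.mk η₁ ρ₁ δ₁ ∈ distTriang C)
    (t : Z.S ⟶ V₂) (k : Z.F ⟶ W₁) (k' : Z.F ⟶ W₀) (h₁ : Z.e₀ ≫ Z.p ≫ t = k ≫ ρ₁)
    (h₂ : k' ≫ ρ₀ ≫ η₁ = (𝟙 Z.F - Z.g) ≫ k) (hm : ∀ x y : Z.F ⟶ V₁, x ≫ η₁ = y ≫ η₁ → x = y) :
    ∃ y : Z.L ⟶ (V₀⟦(1 : ℤ)⟧)⟦(1 : ℤ)⟧, Z.a ≫ y = t ≫ δ₁ ≫ δ₀⟦(1 : ℤ)⟧' ∧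
      y ≫ (η₀⟦(1 : ℤ)⟧')⟦(1 : ℤ)⟧' = Z.b ≫ (Z.e₁ ≫ k'⟦(1 : ℤ)⟧')⟦(1 : ℤ)⟧' := by
  obtain ⟨κ, h₃, h₄⟩ : ∃ κ : Z.F ⟶ V₁, (𝟙 Z.F - Z.g) ≫ k = κ ≫ η₁ ∧
      Z.e₁ ≫ κ⟦(1 : ℤ)⟧' = (Z.p ≫ t) ≫ δ₁ :=
    complete_distinguished_triangle_morphism₁ _ _ Z.d₁ A₁ k (Z.p ≫ t) h₁
  obtain rfl : k' ≫ ρ₀ = κ := hm _ _ (((Category.assoc _ _ _).trans h₂).trans h₃)
  obtain ⟨y, h₅, h₆⟩ : ∃ y : Z.L ⟶ (V₀⟦(1 : ℤ)⟧)⟦(1 : ℤ)⟧,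
      Z.a ≫ y = (t ≫ δ₁) ≫ (-(δ₀⟦(1 : ℤ)⟧')) ∧
      Z.b ≫ (-(Z.e₁ ≫ k'⟦(1 : ℤ)⟧'))⟦(1 : ℤ)⟧' = y ≫ (-((-(η₀⟦(1 : ℤ)⟧'))⟦(1 : ℤ)⟧')) :=
    complete_distinguished_triangle_morphism _ _ Z.d₂
      (rot_of_distTriang _ (rot_of_distTriang _ (rot_of_distTriang _ (rot_of_distTriang _ A₀))))
      (-(Z.e₁ ≫ k'⟦(1 : ℤ)⟧')) (t ≫ δ₁) (by
        change Z.p ≫ t ≫ δ₁ = (-(Z.e₁ ≫ k'⟦(1 : ℤ)⟧')) ≫ (-(ρ₀⟦(1 : ℤ)⟧'))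
        rw [← Category.assoc, ← h₄]
        simp)
  refine ⟨-y, ?_, ?_⟩
  · rw [Preadditive.comp_neg, h₅]
    simp
  · rw [Functor.map_neg, Functor.map_neg, neg_neg, Preadditive.comp_neg] at h₆
    rw [Preadditive.neg_comp, ← h₆, neg_neg]

theorem zz_sub {X : C} (h : ∀ w : Z.F⟦(1 : ℤ)⟧ ⟶ X, w = 0) (y : Z.L ⟶ X) (hy : Z.a ≫ y = 0) :
    ∃ w : (Z.F⟦(1 : ℤ)⟧)⟦(1 : ℤ)⟧ ⟶ X, y = Z.b ≫ Z.e₁⟦(1 : ℤ)⟧' ≫ w := by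
  obtain ⟨w, rfl⟩ : ∃ w : Z.P⟦(1 : ℤ)⟧ ⟶ X, y = Z.b ≫ w := Triangle.yoneda_exact₃ _ Z.d₂ y hy
  obtain ⟨w', h'⟩ : ∃ w' : (Z.F⟦(1 : ℤ)⟧)⟦(1 : ℤ)⟧ ⟶ X, w = (-(Z.e₁⟦(1 : ℤ)⟧')) ≫ w' :=
    Triangle.yoneda_exact₂ _ (rot_of_distTriang _ (rot_of_distTriang _
      (rot_of_distTriang _ (rot_of_distTriang _ Z.d₁)))) w (h _)
  exact ⟨-w', by rw [h']; simp⟩

end Vale.Agent.P236Z.Dt
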