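import Vale.Agent.P236Z.Dt.Thom
import Vale.Agent.P236Z.Dt.ZZ
import Vale.Agent.P236Z.Det.Defs

/-!
# P236, detection: comparison with the equivariant category and the end step

`EqData`: the equivariant input; `EndData`: the target object and the evaluation; `det`.
-/

open CategoryTheory MonoidalCategory Limits Pretriangulated MonObj

set_option linter.unusedSectionVars false

universe v u v' u'

namespace Vale.Agent.P236Z.Dt

open Vale.Agent.P251 Vale.Agent.P251.T Vale.Agent.P251.M Vale.Agent.P251.S Vale.Agent.P251.F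
  Vale.Agent.P251.I Vale.Agent.P251.H Vale.Agent.P251.M.EvenSpheres

/-- iterates of an endomorphism -/
def pw {C : Type u'} [Category.{v'} C] {X : C} (g : X ⟶ X) : ℕ → (X ⟶ X)
  | 0 => 𝟙 X
  | n + 1 => g ≫ pw g n

theorem pw_succ' {C : Type u'} [Category.{v'} C] {X : C} (g : X ⟶ X) (n : ℕ) :
    pw g (n + 1) = pw g n ≫ g := by
  induction n with
  | zero => exact (Category.comp_id g).trans (Category.id_comp g).symm
  | succ n ih => exact (congrArg (g ≫ ·) ih).trans (Category.assoc _ _ _).symm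

variable {T : Type u} [Category.{v} T] [Preadditive T] [HasZeroObject T]
    [HasShift T ℤ] [∀ n : ℤ, (shiftFunctor T n).Additive] [Pretriangulated T] [IsTriangulated T]
    [MonoidalCategory T] [SymmetricCategory T] [TensorTriangulated T] [MonoidalClosed T]
    [HasCoproducts.{0} T] [HasProducts.{0} T] [StableCat T]

/-- The equivariant input.  `Ψ Y` is `Y` with the trivial action tensored with a ring whose
underlying ring is `N`, on which the generator acts by `gam`; `Z.S` is `P` with the trivial action,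
`Z.F` is the induced object. -/
structure EqData (R P : T) [MonObj R] (C : Type u') [Category.{v'} C] [Preadditive C]
    [HasZeroObject C] [HasShift C ℤ] [∀ n : ℤ, (shiftFunctor C n).Additive] [Pretriangulated C]
    where
  /-- the cells -/
  Z : Cells C
  /-- the fundamental class of the representation sphere -/
  r : (Z.F⟦(1 : ℤ)⟧)⟦(1 : ℤ)⟧ ⟶ Z.L
  hr : r ≫ Z.b ≫ Z.e₁⟦(1 : ℤ)⟧' = ((∑ n ∈ Finset.range 9, pw Z.g n)⟦(1 : ℤ)⟧')⟦(1 : ℤ)⟧'
  /-- the functor -/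
  Ψ : T ⥤ C
  [cs : Ψ.CommShift ℤ]
  [tri : Ψ.IsTriangulated]
  /-- the underlying ring -/
  N : T
  [mon : MonObj N]
  [comm : IsCommMonObj N]
  /-- the action of the generator -/
  gam : N ⟶ N
  [gmon : IsMonHom gam]
  /-- the orientation -/
  u : R ⟶ N
  [umon : IsMonHom u]
  hgam : u ≫ pw gam 9 = u
  /-- the adjunction -/
  σ (Y : T) : (Z.F ⟶ Ψ.obj Y) ≃+ (P ⟶ Y ⊗ N)
  σ_nat {X Y : T} (f : Z.F ⟶ Ψ.obj X) (a : X ⟶ Y) : σ Y (f ≫ Ψ.map a) = σ X f ≫ (a ▷ N)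
  σ_g {Y : T} (f : Z.F ⟶ Ψ.obj Y) : σ Y (Z.g ≫ f) = σ Y f ≫ (Y ◁ gam)
  /-- the unit -/
  io : Z.S ⟶ Ψ.obj P
  σ_io : σ P (Z.e₀ ≫ Z.p ≫ io) = (ρ_ P).inv ≫ (P ◁ η[N])

attribute [instance] EqData.cs EqData.tri EqData.mon EqData.comm EqData.gmon EqData.umon

variable {C : Type u'} [Category.{v'} C] [Preadditive C]
    [HasZeroObject C] [HasShift C ℤ] [∀ n : ℤ, (shiftFunctor C n).Additive] [Pretriangulated C]

instance isMonHom_pw {N : T} [MonObj N] (g : N ⟶ N) [IsMonHom g] (n : ℕ) : IsMonHom (pw g n) := by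
  induction n with
  | zero => exact inferInstanceAs (IsMonHom (𝟙 N))
  | succ n ih => exact inferInstanceAs (IsMonHom (g ≫ pw g n))

section Lift

variable {R K : T} (a b c d : R ⟶ K) [MonObj R] [MonObj K] [IsMonHom a] [IsMonHom b] [IsMonHom c]
  [IsMonHom d]

instance vec2 (i : Fin 2) : IsMonHom (![a, b] i) := by
  fin_cases i <;> assumption

instance vec3 (i : Fin 3) : IsMonHom (![a, b, c] i) := by
  fin_cases i <;> assumption

instance vec4 (i : Fin 4) : IsMonHom (![a, b, c, d] i) := by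
  fin_cases i <;> assumption

end Lift

section Eval

variable (D : MUData T) {w : ℤ} {K : T} [MonObj K] [IsCommMonObj K]

theorem dd_lift {n : ℕ} (f : Fin (n + 1) → (D.R ⟶ K)) [∀ i, IsMonHom (f i)] :
    dd D n ≫ Am.lift f =
      ∑ i : Fin (n + 1), (-1 : ℤ) ^ (i : ℕ) • Am.lift fun j => f (i.succAbove j) := by
  rw [dd, Preadditive.sum_comp]
  refine Finset.sum_congr rfl fun i _ => ?_
  rw [Preadditive.zsmul_comp]
  exact congrArg _ (Am.hom_ext fun j => by rw [Am.v_map_assoc, Am.v_lift, Am.v_lift])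

/-- the value of a cochain of degree two -/
noncomputable def e3 (x : Cob.wt Laz 2 w) (a b c : D.R ⟶ K) : (stdEven T).S w ⟶ K :=
  D.evw 2 w x ≫ Am.lift ![a, b, c]

/-- the value of a cochain of degree one -/
noncomputable def e2 (x : Cob.wt Laz 1 w) (a b : D.R ⟶ K) : (stdEven T).S w ⟶ K :=
  D.evw 1 w x ≫ Am.lift ![a, b]

variable (a b c d : D.R ⟶ K) [IsMonHom a] [IsMonHom b] [IsMonHom c] [IsMonHom d]

theorem e3_comp (x : Cob.wt Laz 2 w) {K' : T} [MonObj K'] [IsCommMonObj K'] (φ : K ⟶ K')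
    [IsMonHom φ] : e3 D x a b c ≫ φ = e3 D x (a ≫ φ) (b ≫ φ) (c ≫ φ) := by
  rw [e3, e3, Category.assoc]
  refine congrArg _ (Am.hom_ext fun j => ?_)
  rw [Am.v_lift_assoc, Am.v_lift]
  fin_cases j <;> rfl

theorem e2_comp (x : Cob.wt Laz 1 w) {K' : T} [MonObj K'] [IsCommMonObj K'] (φ : K ⟶ K')
    [IsMonHom φ] : e2 D x a b ≫ φ = e2 D x (a ≫ φ) (b ≫ φ) := by
  rw [e2, e2, Category.assoc]
  refine congrArg _ (Am.hom_ext fun j => ?_)
  rw [Am.v_lift_assoc, Am.v_lift]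
  fin_cases j <;> rfl

theorem e3_d (h : Cob.wt Laz 1 w) : e3 D (Cob.dwt Laz 1 w h) a b c =
    e2 D h b c - e2 D h a c + e2 D h a b := by
  have h0 : (fun j => ![a, b, c] ((0 : Fin 3).succAbove j)) = ![b, c] := by
    funext j; fin_cases j <;> rfl
  have h1 : (fun j => ![a, b, c] ((1 : Fin 3).succAbove j)) = ![a, c] := by
    funext j; fin_cases j <;> rfl
  have h2 : (fun j => ![a, b, c] ((2 : Fin 3).succAbove j)) = ![a, b] := by
    funext j; fin_cases j <;> rfl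
  rw [e3, D.evw_dwt, ← dd, Category.assoc, dd_lift, Fin.sum_univ_three, h0, h1, h2, e2, e2, e2]
  simp [sub_eq_add_neg]

theorem e3_cocycle {n : ℤ} {x : Cob.wt Laz 2 w} {y : Cob.wt Laz 3 w}
    (h : Cob.dwt Laz 2 w x = n • y) :
    ∃ z, e3 D x b c d - e3 D x a c d + e3 D x a b d - e3 D x a b c = n • z := by
  have h0 : (fun j => ![a, b, c, d] ((0 : Fin 4).succAbove j)) = ![b, c, d] := by
    funext j; fin_cases j <;> rfl
  have h1 : (fun j => ![a, b, c, d] ((1 : Fin 4).succAbove j)) = ![a, c, d] := by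
    funext j; fin_cases j <;> rfl
  have h2 : (fun j => ![a, b, c, d] ((2 : Fin 4).succAbove j)) = ![a, b, d] := by
    funext j; fin_cases j <;> rfl
  have h3 : (fun j => ![a, b, c, d] ((3 : Fin 4).succAbove j)) = ![a, b, c] := by
    funext j; fin_cases j <;> rfl
  refine ⟨D.evw 3 w y ≫ Am.lift ![a, b, c, d], ?_⟩
  rw [← Preadditive.zsmul_comp, ← map_zsmul, ← h, D.evw_dwt, ← dd, Category.assoc, dd_lift,
    Fin.sum_univ_four, h0, h1, h2, h3, e3, e3, e3, e3]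
  simp [sub_eq_add_neg, pow_succ]

end Eval

theorem mono_un {R N : T} [MonObj R] [MonObj N] (u : R ⟶ N) [IsMonHom u] {X Y M : T}
    {f g : X ⟶ (Y ⊗ M) ⊗ N} (h : f ≫ ((unitMap R Y ▷ M) ▷ N) = g ≫ ((unitMap R Y ▷ M) ▷ N)) :
    f = g := by
  have h1 : ((unitMap R Y ▷ M) ▷ N) ≫ (((α_ R Y M).hom ≫ (β_ R (Y ⊗ M)).hom) ▷ N) ≫
      (α_ _ _ _).hom ≫ ((Y ⊗ M) ◁ ((u ▷ N) ≫ μ[N])) = 𝟙 _ := by
    rw [un_whisker, ← comp_whiskerRight_assoc, Category.assoc, Iso.inv_hom_id_assoc, unitMap,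
      Category.assoc, BraidedCategory.braiding_naturality_left, comp_whiskerRight,
      comp_whiskerRight, Category.assoc, Category.assoc, associator_naturality_middle_assoc,
      ← MonoidalCategory.whiskerLeft_comp, ← comp_whiskerRight_assoc η[R] u, IsMonHom.one_hom,
      MonObj.one_mul, braiding_tensorUnit_left]
    monoidal
  rw [← Category.comp_id f, ← Category.comp_id g, ← h1, reassoc_of% h]

theorem EqData.σ_pw {R P : T} [MonObj R] (E : EqData R P C) {Y : T} (f : E.Z.F ⟶ E.Ψ.obj Y)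
    (n : ℕ) : E.σ Y (pw E.Z.g n ≫ f) = E.σ Y f ≫ (Y ◁ pw E.gam n) := by
  induction n with
  | zero => simp [pw]
  | succ n ih =>
    rw [pw, Category.assoc, E.σ_g, ih, pw_succ', MonoidalCategory.whiskerLeft_comp, Category.assoc]

section Compare

variable (D : MUData T) (U : UnitCof D.R) {N : T} [MonObj N] [IsCommMonObj N]

/-- the vertices -/
noncomputable def vl (N : T) [MonObj N] {s : ℕ} (j : Fin s) : D.R ⟶ Am D.R s ⊗ N :=
  Am.v D.R j ≫ inlM (Am D.R s) N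

instance (s : ℕ) (j : Fin s) : IsMonHom (vl D N j) := by
  unfold vl
  infer_instance

theorem vl_map {s s' : ℕ} (α : Fin s → Fin s') (j : Fin s) :
    vl D N j ≫ (Am.map D.R α ▷ N) = vl D N (α j) := by
  rw [vl, vl, Category.assoc, inlM_whiskerRight, Am.v_map_assoc]

theorem vl_left {s : ℕ} (j : Fin s) (g : N ⟶ N) [IsMonHom g] :
    vl D N j ≫ (Am D.R s ◁ g) = vl D N j := by
  rw [vl, inlM, Category.assoc, Category.assoc, ← MonoidalCategory.whiskerLeft_comp,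
    IsMonHom.one_hom]

theorem inrM_left (X : T) [MonObj X] (g : N ⟶ N) : inrM X N ≫ (X ◁ g) = g ≫ inrM X N := by
  rw [inrM, Category.assoc, ← whisker_exchange, leftUnitor_inv_naturality_assoc]

variable {M : T} (i : 𝟙_ T ⟶ M)

/-- the projection to the first page -/
noncomputable def out (N : T) (s : ℕ) :
    Am D.R (s + 1) ⊗ N ⟶ ((D.R ⊗ U.cobar.B s (𝟙_ T)) ⊗ M) ⊗ N := (qq D U s ≫ red i _) ▷ N

theorem out_d (s : ℕ) : out D U i N s ≫ ((U.cobar.k s (𝟙_ T) ▷ M) ▷ N) ≫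
    ((unitMap D.R (U.cobar.B (s + 1) (𝟙_ T)) ▷ M) ▷ N) =
      (dd D (s + 1) ▷ N) ≫ out D U i N (s + 1) := by
  rw [out, out, ← comp_whiskerRight, ← comp_whiskerRight, ← comp_whiskerRight,
    ← comp_whiskerRight, dd_qq_assoc, Category.assoc, ← red_nat, Category.assoc]

theorem dd_right (s : ℕ) : dd D s ▷ N = ∑ j : Fin (s + 1), (-1 : ℤ) ^ (j : ℕ) •
    (Am.map D.R (Fin.succAbove j : Fin s → Fin (s + 1)) ▷ N) := by
  refine ((tensorRight N).map_sum _ _).trans (Finset.sum_congr rfl fun j _ => ?_)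
  exact (tensorRight N).map_zsmul ..

variable {i} {n : ℤ} {δ : M ⟶ (𝟙_ T)⟦(1 : ℤ)⟧} (hM : Dist (n • 𝟙 (𝟙_ T)) i δ)

include hM in
theorem zsmul_out (s : ℕ) {X : T} (z : X ⟶ Am D.R (s + 1) ⊗ N) : (n • z) ≫ out D U i N s = 0 := by
  have h : (n • (qq D U s ≫ red i _)) ▷ N = n • out D U i N s := (tensorRight N).map_zsmul ..
  rw [Preadditive.zsmul_comp, ← Preadditive.comp_zsmul, ← h, ← Preadditive.zsmul_comp,
    zsmul_red' hM, MonoidalPreadditive.zero_whiskerRight, comp_zero]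

include hM in
/-- (D1) -/
theorem compare {w : ℤ} (E : EqData D.R ((stdEven T).S w) C)
    (t : (stdEven T).S w ⟶ U.cobar.B 2 (𝟙_ T) ⊗ M) (x : Cob.wt Laz 2 w) (y : Cob.wt Laz 3 w)
    (hxy : Cob.dwt Laz 2 w x = n • y)
    (ht : t ≫ (unitMap D.R _ ▷ M) = D.evw 2 w x ≫ qq D U 2 ≫ red i _) :
    ∃ (y₀ : E.Z.L ⟶ ((E.Ψ.obj (𝟙_ T ⊗ M))⟦(1 : ℤ)⟧)⟦(1 : ℤ)⟧) (z : E.Z.F ⟶ E.Ψ.obj (𝟙_ T ⊗ M)),
      E.Z.a ≫ y₀ = E.io ≫ E.Ψ.map (t ≫ bdM D U M 1 ≫ (bdM D U M 0)⟦(1 : ℤ)⟧') ≫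
        (E.Ψ.commShiftIso (1 : ℤ)).hom.app _ ≫ ((E.Ψ.commShiftIso (1 : ℤ)).hom.app _)⟦(1 : ℤ)⟧' ∧
      E.r ≫ y₀ = (z⟦(1 : ℤ)⟧')⟦(1 : ℤ)⟧' ∧
      E.σ _ z = (∑ m ∈ Finset.range 9, e3 D x E.u (E.u ≫ pw E.gam m) (E.u ≫ pw E.gam (m + 1))) ≫
        (λ_ E.N).inv ≫ (red i (𝟙_ T) ▷ E.N) := by
  have A : ∀ s, Dist (E.Ψ.map (unitMap D.R (U.cobar.B s (𝟙_ T)) ▷ M))
      (E.Ψ.map (U.cobar.k s (𝟙_ T) ▷ M))
      (E.Ψ.map (bdM D U M s) ≫ (E.Ψ.commShiftIso (1 : ℤ)).hom.app _) :=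
    fun s => E.Ψ.map_distinguished _ (dist_bdM D U M s)
  obtain ⟨k, hk⟩ := (E.σ _).surjective
    (e3 D x (vl D E.N (0 : Fin 2)) (vl D E.N 1) (E.u ≫ inrM _ _) ≫ out D U i E.N 1)
  obtain ⟨k', hk'⟩ := (E.σ _).surjective
    (e3 D x (vl D E.N (0 : Fin 1)) (E.u ≫ inrM _ _) (E.u ≫ E.gam ≫ inrM _ _) ≫ out D U i E.N 0)
  have hg : ∀ s (g : E.N ⟶ E.N), out D U i E.N s ≫ (_ ◁ g) = (_ ◁ g) ≫ out D U i E.N s :=
    fun s g => (whisker_exchange _ _).symm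
  obtain ⟨y₀, h₁, h₂⟩ := zz E.Z (A 0) (A 1) (E.io ≫ E.Ψ.map t) k k' (by
      apply (E.σ _).injective
      apply mono_un E.u
      obtain ⟨z, hz⟩ := e3_cocycle D (vl D E.N (0 : Fin 3)) (vl D E.N 1) (vl D E.N 2)
        (E.u ≫ inrM _ _) hxy
      have h0 : D.evw 2 w x ≫ inlM _ E.N = e3 D x (vl D E.N (0 : Fin 3)) (vl D E.N 1) (vl D E.N 2) := by
        refine congrArg _ (Am.hom_ext fun j => ?_)
        rw [Am.v_lift]
        fin_cases j <;> rfl
      have h1 : ((ρ_ _).inv ≫ (_ ◁ η[E.N])) ≫ (t ▷ E.N) ≫ ((unitMap D.R _ ▷ M) ▷ E.N) =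
          (D.evw 2 w x ≫ inlM _ E.N) ≫ out D U i E.N 2 := by
        rw [← comp_whiskerRight, ht, comp_whiskerRight, ← inlM, inlM_whiskerRight_assoc,
          Category.assoc, out]
      rw [← Category.assoc E.Z.p, ← Category.assoc E.Z.e₀, E.σ_nat, E.σ_nat, E.σ_io, hk,
        Category.assoc, h1, h0, Category.assoc, Category.assoc, out_d, dd_right,
        Fin.sum_univ_three, ← Category.assoc, ← sub_eq_zero, ← Preadditive.sub_comp,
        ← neg_eq_zero, ← Preadditive.neg_comp, ← zsmul_out D U hM 2 z, ← hz]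
      simp only [Preadditive.comp_add, Preadditive.comp_zsmul, e3_comp, vl_map, Category.assoc,
        inrM_whiskerRight]
      congr 1
      simp [pow_succ]
      abel) (by
      apply (E.σ _).injective
      obtain ⟨z, hz⟩ := e3_cocycle D (vl D E.N (0 : Fin 2)) (vl D E.N 1)
        (E.u ≫ inrM _ _) (E.u ≫ E.gam ≫ inrM _ _) hxy
      rw [Preadditive.sub_comp, Category.id_comp, map_sub, E.σ_g, ← Category.assoc, E.σ_nat,
        E.σ_nat, hk, hk', Category.assoc, Category.assoc, out_d, dd_right, Fin.sum_univ_two,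
        Category.assoc _ (out D U i E.N 1), hg, ← Category.assoc _ _ (out D U i E.N 1),
        ← Category.assoc _ _ (out D U i E.N 1), ← Preadditive.sub_comp, ← sub_eq_zero, ← Preadditive.sub_comp, ← zsmul_out D U hM 1 z, ← hz]
      simp only [Preadditive.comp_add, Preadditive.comp_zsmul, e3_comp, vl_map, Category.assoc,
        inrM_whiskerRight, vl_left D (s := 2), inrM_left]
      congr 1
      simp [pow_succ]
      abel) (fun a b hab => by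
      apply (E.σ _).injective
      apply mono_un E.u
      rw [← E.σ_nat, ← E.σ_nat, hab])
  obtain ⟨z₁, hz₁⟩ := (shiftFunctor C (1 : ℤ)).map_surjective (E.r ≫ y₀)
  obtain ⟨z, rfl⟩ := (shiftFunctor C (1 : ℤ)).map_surjective z₁
  refine ⟨y₀, z, ?_, hz₁.symm, ?_⟩
  · rw [h₁, Functor.map_comp, Functor.map_comp, Functor.map_comp]
    simp only [Category.assoc]
    rw [E.Ψ.commShiftIso_hom_naturality_assoc]
  · have h₃ := congrArg (E.r ≫ ·) h₂
    simp only [Functor.map_comp] at h₃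
    rw [← Category.assoc, ← hz₁, reassoc_of% E.hr, ← Functor.map_comp, ← Functor.map_comp,
      ← Functor.map_comp, ← Functor.map_comp] at h₃
    have h₄ := congrArg (E.σ _) ((shiftFunctor C (1 : ℤ)).map_injective
      ((shiftFunctor C (1 : ℤ)).map_injective h₃))
    rw [E.σ_nat, Preadditive.sum_comp, map_sum] at h₄
    apply mono_un E.u
    have h₅ : (λ_ E.N).inv ≫ (red i (𝟙_ T) ▷ E.N) ≫ ((unitMap D.R (𝟙_ T) ▷ M) ▷ E.N) =
        inrM _ _ ≫ out D U i E.N 0 := by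
      rw [← comp_whiskerRight, ← red_nat, ← one_qq D U, inrM, out, Category.assoc,
        Category.assoc, comp_whiskerRight]
    refine h₄.trans ?_
    rw [Category.assoc, Category.assoc, h₅, Preadditive.sum_comp, ← sub_eq_zero,
      ← Finset.sum_sub_distrib]
    let f : ℕ → _ := fun m => e3 D x (vl D E.N (0 : Fin 1)) (E.u ≫ inrM _ _)
      ((E.u ≫ pw E.gam m) ≫ inrM _ _) ≫ out D U i E.N 0
    refine (Finset.sum_congr rfl fun m _ => ?_).trans ((Finset.sum_range_sub f 9).trans ?_)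
    · obtain ⟨z', hz⟩ := e3_cocycle D (vl D E.N (0 : Fin 1)) (E.u ≫ inrM _ _)
        ((E.u ≫ pw E.gam m) ≫ inrM _ _) ((E.u ≫ pw E.gam (m + 1)) ≫ inrM _ _) hxy
      have h₆ := zsmul_out D U hM 0 z'
      rw [← hz] at h₆
      rw [E.σ_pw, hk', Category.assoc, hg, ← Category.assoc, ← Category.assoc _ (inrM _ _),
        e3_comp _ _ _ _ _ (_ ◁ _), e3_comp _ _ _ _ _ (inrM _ _), ← sub_eq_zero, ← neg_eq_zero, ← h₆]
      simp only [f, Category.assoc, vl_left D (s := 1), inrM_left, Preadditive.sub_comp,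
        Preadditive.add_comp, pw]
      abel
    · simp only [f]
      rw [E.hgam, pw, Category.comp_id, sub_self]

end Compare

/-- The target object and the evaluation of cochains. -/
structure EndData {R P : T} [MonObj R] (E : EqData R P C) {M : T} (i : 𝟙_ T ⟶ M) where
  /-- the target, with Moore coefficients -/
  X : C
  /-- the map to the target -/
  π : E.Ψ.obj (𝟙_ T ⊗ M) ⟶ X
  odd (f : E.Z.F⟦(1 : ℤ)⟧ ⟶ (X⟦(1 : ℤ)⟧)⟦(1 : ℤ)⟧) : f = 0
  /-- the values -/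
  B : Type
  [ring : CommRing B]
  /-- the maximal ideal -/
  m : Ideal B
  h27 : (27 : B) = 0
  h9 (b : B) : 9 * b = 0 → b ∈ m
  /-- the evaluation -/
  Λ : (E.Z.F ⟶ X) →+ B
  Λ_g (f : E.Z.F ⟶ X) : Λ (E.Z.g ≫ f) = Λ f

attribute [instance] EndData.ring

/-- the value of a class of the underlying ring -/
noncomputable def EndData.val {R P : T} [MonObj R] {E : EqData R P C} {M : T} {i : 𝟙_ T ⟶ M}
    (X : EndData E i) (a : P ⟶ E.N) : X.B :=
  X.Λ ((E.σ _).symm (a ≫ (λ_ E.N).inv ≫ (red i (𝟙_ T) ▷ E.N)) ≫ X.π)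

/-- the image of `θ` in the target -/
noncomputable def EndData.img {R P P' : T} [MonObj R] {E : EqData R P C} {M : T} {i : 𝟙_ T ⟶ M}
    (X : EndData E i) (e : P ⟶ (P'⟦(1 : ℤ)⟧)⟦(1 : ℤ)⟧) (θ : P' ⟶ 𝟙_ T) :
    E.Z.S ⟶ (X.X⟦(1 : ℤ)⟧)⟦(1 : ℤ)⟧ :=
  E.io ≫ E.Ψ.map (e ≫ ((θ ≫ red i _)⟦(1 : ℤ)⟧')⟦(1 : ℤ)⟧') ≫
    (E.Ψ.commShiftIso (1 : ℤ)).hom.app _ ≫ ((E.Ψ.commShiftIso (1 : ℤ)).hom.app _)⟦(1 : ℤ)⟧' ≫
      (X.π⟦(1 : ℤ)⟧')⟦(1 : ℤ)⟧'

namespace EndData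

variable {R P : T} [MonObj R] {E : EqData R P C} {M : T} {i : 𝟙_ T ⟶ M} (X : EndData E i)

theorem Λ_pw (f : E.Z.F ⟶ X.X) (n : ℕ) : X.Λ (pw E.Z.g n ≫ f) = X.Λ f := by
  induction n with
  | zero => rw [pw, Category.id_comp]
  | succ n ih => rw [pw, Category.assoc, X.Λ_g, ih]

/-- `val` as an additive map -/
noncomputable def valHom : (P ⟶ E.N) →+ X.B :=
  AddMonoidHom.mk' X.val fun a b => by
    rw [val, val, val, Preadditive.add_comp, map_add, Preadditive.add_comp, map_add]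

theorem val_pw (a : P ⟶ E.N) (n : ℕ) : X.val (a ≫ pw E.gam n) = X.val a := by
  refine Eq.trans ?_ (X.Λ_pw _ n)
  rw [val, ← Category.assoc (pw E.Z.g n)]
  congr 2
  rw [AddEquiv.symm_apply_eq, E.σ_pw, AddEquiv.apply_symm_apply, Category.assoc, Category.assoc,
    Category.assoc, ← whisker_exchange, leftUnitor_inv_naturality_assoc]

end EndData

/-- **Detection.**  If the image of `θ` is divisible by the Euler class with a quotient of value in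
`3 m`, then `θ` has filtration three. -/
theorem det (D : MUData T) {j : ℕ} (hL : Det.LIST j) {H : T} [MonObj H] [IsCommMonObj H]
    (h0 : ∀ k : ℤ, k ≠ 0 → ∀ g : (𝟙_ T)⟦k⟧ ⟶ H, g = 0) (h3 : (3 : ℤ) • η[H] = 0) {w : ℤ}
    (hw : w + 1 = Det.w0 j) (θ : (stdEven T).S w ⟶ 𝟙_ T) {t1 : Cob Laz 1} (ht1 : IsT1 3 t1)
    (E : EqData D.R ((stdEven T).S (Det.w0 j)) C)
    (hX : ∀ (b : ℕ) (M : T) (i : 𝟙_ T ⟶ M) (δ : M ⟶ (𝟙_ T)⟦(1 : ℤ)⟧), 3 ≤ b →
      Dist ((3 : ℤ) ^ b • 𝟙 (𝟙_ T)) i δ → ∃ X : EndData E i,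
        (∀ (h : Cob.wt Laz 1 (Det.w0 j)) (c : ℤ), h.1 - c * t1 ^ (3 ^ (j + 1)) ∈ Det.II 1 →
          X.val (e2 D h E.u (E.u ≫ E.gam)) ∈ X.m → (3 : ℤ) ∣ c) ∧
        ∃ (y : E.Z.L ⟶ (X.X⟦(1 : ℤ)⟧)⟦(1 : ℤ)⟧) (z : E.Z.F ⟶ X.X) (β : X.B),
          X.img (eS hw).hom θ = E.Z.a ≫ y ∧ E.r ≫ y = (z⟦(1 : ℤ)⟧')⟦(1 : ℤ)⟧' ∧
          X.Λ z = 3 * β ∧ β ∈ X.m) : AF3 H θ := by
  obtain ⟨U⟩ := exists_unitCof D.R
  obtain ⟨b₀, hb₀⟩ := hL t1 ht1
  obtain ⟨k, hk⟩ := descend h3 (𝟙_ T)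
  obtain ⟨M, i, δ, hM⟩ := exists_cone ((3 : ℤ) ^ (b₀ + k + 3) • 𝟙 (𝟙_ T))
  obtain ⟨X, hc, y, z, β, h₁, h₂, h₃, h₄⟩ := hX _ M i δ (by omega) hM
  obtain ⟨t, x, x', hx, ht, ht'⟩ := exists_lift D U (p := 3) (by norm_num) hM hw (by
    have h5 : Det.w0 j = 2 * 3 ^ (j + 1) := rfl
    push_cast
    omega) θ
  obtain ⟨h, c, hh, ⟨v, hv⟩, hI, hy⟩ := hb₀ x.1 x.2 (by
    have h5 : Cob.d 2 x.1 = ((3 : ℕ) : ℤ) ^ (b₀ + k + 3) • x'.1 := congrArg Subtype.val hx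
    rw [h5, zsmul_eq_mul, add_assoc, pow_add]
    push_cast
    exact (dvd_mul_right _ _).mul_right _)
  obtain ⟨y₀, z₀, e₁, e₂, e₃⟩ := compare D U hM E t x x' hx ht'
  obtain ⟨w₀, hw₀⟩ := zz_sub E.Z X.odd (y - y₀ ≫ (X.π⟦(1 : ℤ)⟧')⟦(1 : ℤ)⟧') (by
    rw [Preadditive.comp_sub, ← h₁, reassoc_of% e₁, ht, EndData.img, sub_self])
  obtain ⟨w₁, rfl⟩ := (shiftFunctor C (1 : ℤ)).map_surjective w₀
  obtain ⟨w₂, rfl⟩ := (shiftFunctor C (1 : ℤ)).map_surjective w₁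
  have h₅ := congrArg (E.r ≫ ·) hw₀
  simp only [Preadditive.comp_sub] at h₅
  rw [h₂, reassoc_of% e₂, reassoc_of% E.hr, ← Functor.map_comp, ← Functor.map_comp,
    ← Functor.map_comp, ← Functor.map_comp, ← Functor.map_sub, ← Functor.map_sub] at h₅
  have h₆ := congrArg X.Λ ((shiftFunctor C (1 : ℤ)).map_injective
    ((shiftFunctor C (1 : ℤ)).map_injective h₅))
  rw [map_sub, h₃, Preadditive.sum_comp, map_sum, Finset.sum_congr rfl fun n _ => X.Λ_pw w₂ n,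
    Finset.sum_const, Finset.card_range, (E.σ _).eq_symm_apply.2 e₃] at h₆
  change 3 * β - X.valHom _ = _ at h₆
  have hv' : (3 : ℤ) • x = Cob.dwt Laz 1 _ ⟨h, hh⟩ +
      (81 : ℤ) • (⟨Cob.proj _ v, Cob.isWt_proj _ v⟩ : Cob.wt Laz 2 (Det.w0 j)) := by
    have h5 : ((3 : ℤ) • x - Cob.dwt Laz 1 _ ⟨h, hh⟩).1 = (81 : ℤ) • v := by
      refine Eq.trans ?_ (hv.trans (by rw [zsmul_eq_mul]; norm_num))
      change (3 : ℤ) • x.1 - Cob.d 1 h = _
      rw [zsmul_eq_mul]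
      norm_num
    have h6 := Cob.proj_of_isWt ((3 : ℤ) • x - Cob.dwt Laz 1 _ ⟨h, hh⟩).2 (Det.w0 j)
    rw [if_pos rfl] at h6
    rw [← sub_eq_iff_eq_add']
    apply Subtype.ext
    rw [← h6, h5, ← Cob.projHom_apply, map_zsmul]
    rfl
  have h₇ : ∀ n, (3 : ℤ) • X.valHom (e3 D x E.u (E.u ≫ pw E.gam n) (E.u ≫ pw E.gam (n + 1))) =
      X.val (e2 D ⟨h, hh⟩ E.u (E.u ≫ E.gam)) -
        (X.valHom (e2 D ⟨h, hh⟩ E.u (E.u ≫ pw E.gam (n + 1))) -
          X.valHom (e2 D ⟨h, hh⟩ E.u (E.u ≫ pw E.gam n))) := fun n => by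
    have h8 : ∀ q : X.B, (81 : ℤ) • q = 0 := fun q => by
      rw [zsmul_eq_mul]
      push_cast
      linear_combination (3 * q) * X.h27
    rw [← map_zsmul, e3, ← Preadditive.zsmul_comp, ← map_zsmul, hv', map_add, map_zsmul,
      Preadditive.add_comp, Preadditive.zsmul_comp, map_add, map_zsmul, h8, add_zero, ← e3, e3_d,
      map_add, map_sub, ← X.val_pw _ n, e2_comp, Category.assoc]
    change X.val _ - _ + _ = X.val (e2 D _ _ (E.u ≫ pw E.gam (n + 1))) - _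
    abel
  have h₈ := congrArg ((3 : ℤ) • ·) h₆
  simp only [smul_sub, map_sum, Finset.smul_sum, h₇, Finset.sum_sub_distrib] at h₈
  rw [← Finset.sum_sub_distrib,
    Finset.sum_range_sub (fun n => X.valHom (e2 D ⟨h, hh⟩ E.u (E.u ≫ pw E.gam n))), E.hgam, pw,
    Category.comp_id, sub_self, sub_zero, Finset.sum_const, Finset.card_range] at h₈
  have h₉ := X.h9 (β - X.val (e2 D ⟨h, hh⟩ E.u (E.u ≫ E.gam))) (by
    simp only [zsmul_eq_mul, nsmul_eq_mul] at h₈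
    push_cast at h₈
    linear_combination h₈ + X.Λ w₂ * X.h27)
  obtain ⟨y', hy', hI'⟩ := hy (hc ⟨h, hh⟩ c hI (by simpa using sub_mem h₄ h₉))
  have h₁₀ := (af3_of_mem D h0 U (p := 3) h3 i t x ⟨y', hy'⟩ hI' ht').comp (eS hw).inv (𝟙 _)
  rw [ht, Category.comp_id, Iso.inv_hom_id_assoc] at h₁₀
  exact hk _ (by omega) M i δ hM _ θ h₁₀.of_shift.of_shift

end Vale.Agent.P236Z.Dt
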